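import Vale.Agent.Lib.P355.Witt

/-!
# P355: orthonormal coordinates of the projectors of seven mutually unbiased bases of `ℂ⁶`
-/

namespace P355

open Matrix

abbrev V6 := EuclideanSpace ℂ (Fin 6)

/-- entry of the projector -/
noncomputable def pr (v : V6) (k l : Fin 6) : ℂ := v k * (starRingEnd ℂ) (v l)

/-- coordinate of the projector minus `s` times the identity -/
noncomputable def cc (s : ℝ) (v : V6) (k l : Fin 6) : ℝ :=
  (pr v k l).re + (pr v k l).im - if k = l then s else 0

theorem pr_conj (v : V6) (k l : Fin 6) : (starRingEnd ℂ) (pr v k l) = pr v l k := by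
  unfold pr
  rw [map_mul, Complex.conj_conj, mul_comm]

theorem sum_pr_diag (v : V6) : ∑ k, ((pr v k k).re + (pr v k k).im) = ‖v‖ ^ 2 := by
  rw [EuclideanSpace.norm_sq_eq]
  refine Finset.sum_congr rfl fun k _ => ?_
  unfold pr
  rw [Complex.mul_conj, Complex.ofReal_re, Complex.ofReal_im, add_zero, Complex.normSq_eq_norm_sq]

theorem inner_eq (v w : V6) : inner ℂ v w = ∑ k, (starRingEnd ℂ) (v k) * w k := by
  rw [PiLp.inner_apply]
  refine Finset.sum_congr rfl fun k _ => ?_
  rw [RCLike.inner_apply, mul_comm]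

theorem sum_pr_pr (v w : V6) : ∑ k, ∑ l, ((pr v k l).re + (pr v k l).im) *
    ((pr w k l).re + (pr w k l).im) = ‖inner ℂ v w‖ ^ 2 := by
  have h1 : ∀ k l, ((pr v k l).re + (pr v k l).im) * ((pr w k l).re + (pr w k l).im) =
      (pr v k l * (starRingEnd ℂ) (pr w k l)).re + (pr v k l * pr w k l).im := by
    intro k l
    simp only [Complex.mul_re, Complex.mul_im, Complex.conj_re, Complex.conj_im]
    ring
  simp only [h1, Finset.sum_add_distrib]
  have h2 : ∑ k, ∑ l, pr v k l * (starRingEnd ℂ) (pr w k l) =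
      ((‖inner ℂ v w‖ ^ 2 : ℝ) : ℂ) := by
    have e : (((‖inner ℂ v w‖ ^ 2 : ℝ)) : ℂ) = inner ℂ v w * (starRingEnd ℂ) (inner ℂ v w) := by
      rw [Complex.mul_conj, Complex.normSq_eq_norm_sq]
    rw [e, inner_eq, map_sum, mul_comm, Finset.sum_mul_sum]
    refine Finset.sum_congr rfl fun k _ => Finset.sum_congr rfl fun l _ => ?_
    unfold pr
    simp only [map_mul, Complex.conj_conj]
    ring
  have h3 : (∑ k, ∑ l, pr v k l * pr w k l).im = 0 := by
    have e : ∑ k, ∑ l, pr v k l * pr w k l = (∑ k, v k * w k) *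
        (starRingEnd ℂ) (∑ k, v k * w k) := by
      rw [map_sum, Finset.sum_mul_sum]
      refine Finset.sum_congr rfl fun k _ => Finset.sum_congr rfl fun l _ => ?_
      unfold pr
      simp only [map_mul]
      ring
    rw [e, Complex.mul_conj, Complex.ofReal_im]
  have h4 := congrArg Complex.re h2
  rw [Complex.ofReal_re] at h4
  simp only [Complex.re_sum] at h4
  simp only [Complex.im_sum] at h3
  rw [h4, h3, add_zero]

theorem cc_sum (s t : ℝ) (v w : V6) : ∑ k, ∑ l, cc s v k l * cc t w k l =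
    ‖inner ℂ v w‖ ^ 2 - t * ‖v‖ ^ 2 - s * ‖w‖ ^ 2 + 6 * (s * t) := by
  have h1 : ∀ k l, cc s v k l * cc t w k l =
      ((pr v k l).re + (pr v k l).im) * ((pr w k l).re + (pr w k l).im) -
      (if k = l then t * ((pr v k l).re + (pr v k l).im) else 0) -
      (if k = l then s * ((pr w k l).re + (pr w k l).im) else 0) +
      (if k = l then s * t else 0) := by
    intro k l
    unfold cc
    split_ifs
    · ring
    · ring
  simp only [h1, Finset.sum_add_distrib, Finset.sum_sub_distrib, Finset.sum_ite_eq,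
    Finset.mem_univ, if_true]
  rw [sum_pr_pr, ← Finset.mul_sum, ← Finset.mul_sum, sum_pr_diag, sum_pr_diag]
  simp

/-- row index -/
abbrev RI := (Fin 6 × Fin 6) ⊕ Fin 6
/-- column index -/
abbrev CI := Fin 7 × Fin 6

/-- the shift -/
noncomputable def sh (a : Fin 7) : ℝ := if a = 0 then 0 else 1 / 6

/-- the coordinate matrix -/
noncomputable def NN (B : Fin 7 → Fin 6 → V6) : Matrix RI CI ℝ := fun x c =>
  match x with
  | Sum.inl p => cc (sh c.1) (B c.1 c.2) p.1 p.2
  | Sum.inr e => if c.1 = e.succ then 1 / √6 else 0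

/-- hypotheses on the bases -/
structure MUB7 (B : Fin 7 → Fin 6 → V6) : Prop where
  norm : ∀ a i, ‖B a i‖ = 1
  orth : ∀ a i j, i ≠ j → inner ℂ (B a i) (B a j) = 0
  unb : ∀ a b, a ≠ b → ∀ i j, ‖inner ℂ (B a i) (B b j)‖ ^ 2 = 1 / 6

theorem NN_left {B : Fin 7 → Fin 6 → V6} (h : MUB7 B) : (NN B)ᵀ * NN B = 1 := by
  ext ⟨a, i⟩ ⟨b, j⟩
  rw [mul_apply, Fintype.sum_sum_type, one_apply]
  have e1 : ∑ p : Fin 6 × Fin 6, (NN B)ᵀ (a, i) (Sum.inl p) * NN B (Sum.inl p) (b, j) =
      ‖inner ℂ (B a i) (B b j)‖ ^ 2 - sh b - sh a + 6 * (sh a * sh b) := by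
    rw [Fintype.sum_prod_type]
    have := cc_sum (sh a) (sh b) (B a i) (B b j)
    rw [h.norm, h.norm, one_pow, mul_one, mul_one] at this
    rw [← this]
    rfl
  have e2 : ∑ e : Fin 6, (NN B)ᵀ (a, i) (Sum.inr e) * NN B (Sum.inr e) (b, j) =
      if a = b ∧ a ≠ 0 then 1 / 6 else 0 := by
    have h6 : (1 / √6 : ℝ) * (1 / √6) = 1 / 6 := by
      rw [div_mul_div_comm, one_mul, Real.mul_self_sqrt (by norm_num)]
    have : ∀ e : Fin 6, (NN B)ᵀ (a, i) (Sum.inr e) * NN B (Sum.inr e) (b, j) =
        if a = e.succ ∧ b = e.succ then 1 / 6 else 0 := by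
      intro e
      change (if a = e.succ then 1 / √6 else 0) * (if b = e.succ then 1 / √6 else 0) = _
      by_cases ha : a = e.succ <;> by_cases hb : b = e.succ <;> simp [ha, hb, ← h6]
    rw [Finset.sum_congr rfl fun e _ => this e]
    refine Fin.cases ?_ (fun a' => ?_) a
    · have : ∀ e : Fin 6, ¬ ((0 : Fin 7) = e.succ ∧ b = e.succ) := by
        rintro e ⟨h0, _⟩
        exact Fin.succ_ne_zero e h0.symm
      rw [Finset.sum_eq_zero fun e _ => if_neg (this e)]
      simp
    · rw [Finset.sum_eq_single a']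
      · by_cases hb : b = a'.succ
        · simp [hb]
        · rw [if_neg (fun hh => hb hh.2), if_neg (fun hh => hb hh.1.symm)]
      · intro e _ he
        rw [if_neg]
        rintro ⟨h0, _⟩
        exact he (Fin.succ_injective _ h0).symm
      · intro h0
        exact absurd (Finset.mem_univ _) h0
  rw [e1, e2]
  by_cases hab : a = b
  · subst hab
    by_cases hij : i = j
    · subst hij
      have hn : inner ℂ (B a i) (B a i) = 1 := by
        rw [inner_self_eq_norm_sq_to_K, h.norm]
        simp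
      rw [hn, if_pos rfl, norm_one]
      by_cases ha : a = 0
      · simp [ha, sh]
      · simp [ha, sh]
    · have hne : ¬ ((a, i) = (a, j)) := fun hh => hij (congrArg Prod.snd hh)
      rw [h.orth a i j hij, norm_zero, if_neg hne]
      by_cases ha : a = 0
      · simp [ha, sh]
      · simp [ha, sh]
  · rw [h.unb a b hab, if_neg (fun hh => hab hh.1), if_neg (fun hh => hab (congrArg Prod.fst hh))]
    by_cases ha : a = 0
    · by_cases hb : b = 0
      · exact absurd (ha.trans hb.symm) hab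
      · simp [ha, hb, sh]
    · by_cases hb : b = 0
      · simp [ha, hb, sh]
      · simp [ha, hb, sh]

theorem card_RI : Fintype.card RI = Fintype.card CI := by decide

/-- the rows are orthonormal, too -/
theorem NN_right {B : Fin 7 → Fin 6 → V6} (h : MUB7 B) : NN B * (NN B)ᵀ = 1 :=
  (mul_eq_one_comm_of_equiv (Fintype.equivOfCardEq card_RI)).mpr (NN_left h)

end P355
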