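import Vale.Agent.Lib.P355.Coord

/-!
# P355: the field generated by seven mutually unbiased bases contains `i`, and six is a sum of two squares
-/

namespace P355

open Matrix

/-- the real part of the field -/
noncomputable def RF (K : Subfield ℂ) : Subfield ℝ := K.comap (algebraMap ℝ ℂ)

theorem mem_RF {K : Subfield ℂ} {x : ℝ} : x ∈ RF K ↔ (x : ℂ) ∈ K := Iff.rfl

section

variable {K : Subfield ℂ} (hK : ∀ z ∈ K, (starRingEnd ℂ) z ∈ K)

include hK

theorem re_mem {z : ℂ} (hz : z ∈ K) : z.re ∈ RF K := by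
  rw [mem_RF]
  have : ((z.re : ℝ) : ℂ) = (z + (starRingEnd ℂ) z) / 2 := by
    rw [Complex.add_conj]
    push_cast
    ring
  rw [this]
  exact K.div_mem (K.add_mem hz (hK z hz)) (by
    have := K.add_mem K.one_mem K.one_mem
    rwa [one_add_one_eq_two] at this)

theorem im_mem' {z : ℂ} (hz : z ∈ K) : Complex.I * (z.im : ℂ) ∈ K := by
  have : Complex.I * (z.im : ℂ) = (z - (starRingEnd ℂ) z) / 2 := by
    rw [Complex.sub_conj]
    push_cast
    ring
  rw [this]
  exact K.div_mem (K.sub_mem hz (hK z hz)) (by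
    have := K.add_mem K.one_mem K.one_mem
    rwa [one_add_one_eq_two] at this)

theorem im_div_mem {z w : ℂ} (hz : z ∈ K) (hw : w ∈ K) (h0 : w.im ≠ 0) :
    z.im / w.im ∈ RF K := by
  rw [mem_RF]
  have h1 := im_mem' hK hz
  have h2 := im_mem' hK hw
  have : ((z.im / w.im : ℝ) : ℂ) = (Complex.I * (z.im : ℂ)) / (Complex.I * (w.im : ℂ)) := by
    rw [mul_div_mul_left _ _ Complex.I_ne_zero]
    push_cast
    rfl
  rw [this]
  exact K.div_mem h1 h2

theorem im_sq_mem {z : ℂ} (hz : z ∈ K) : z.im ^ 2 ∈ RF K := by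
  rw [mem_RF]
  have h1 := im_mem' hK hz
  have h2 := K.neg_mem (K.mul_mem h1 h1)
  have : -(Complex.I * (z.im : ℂ) * (Complex.I * (z.im : ℂ))) = ((z.im ^ 2 : ℝ) : ℂ) := by
    push_cast
    ring_nf
    rw [Complex.I_sq]
    ring
  rwa [this] at h2

end

/-- swapping the indices -/
def sw (p : Fin 6 × Fin 6) : Fin 6 × Fin 6 := (p.2, p.1)

/-- Gram matrix of the rows -/
theorem gram {B : Fin 7 → Fin 6 → V6} (h : MUB7 B) (x y : RI) :
    ∑ c, NN B x c * NN B y c = if x = y then 1 else 0 := by
  have := congrFun (congrFun (NN_right h) x) y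
  rw [mul_apply, one_apply] at this
  rw [← this]
  rfl

theorem exists_im {B : Fin 7 → Fin 6 → V6} (h : MUB7 B) :
    ∃ a i k l, (pr (B a i) k l).im ≠ 0 := by
  by_contra hc
  push Not at hc
  have h1 := gram h (Sum.inl (0, 1)) (Sum.inl (0, 1))
  have h2 := gram h (Sum.inl (0, 1)) (Sum.inl (1, 0))
  rw [if_pos rfl] at h1
  rw [if_neg (by decide)] at h2
  have h3 : ∀ c, NN B (Sum.inl (1, 0)) c = NN B (Sum.inl (0, 1)) c := by
    intro c
    change cc _ _ _ _ = cc _ _ _ _
    unfold cc
    have h4 := congrArg Complex.re (pr_conj (B c.1 c.2) 0 1)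
    rw [Complex.conj_re] at h4
    rw [hc, hc]
    simp [h4]
  simp only [h3] at h2
  rw [h1] at h2
  exact one_ne_zero h2

/-- sign -/
def sg (p : Fin 6 × Fin 6) : ℝ := if p.1 ≤ p.2 then 1 else -1

/-- scale -/
noncomputable def sc (y : ℝ) (p : Fin 6 × Fin 6) : ℝ := if p.1 ≤ p.2 then 1 / 2 else 1 / (2 * y)

/-- the matrix with entries in the real field -/
noncomputable def MM (B : Fin 7 → Fin 6 → V6) (y : ℝ) : Matrix RI CI ℝ := fun x c =>
  match x with
  | Sum.inl p => sc y p * (NN B (Sum.inl p) c + sg p * NN B (Sum.inl (sw p)) c)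
  | Sum.inr e => if c.1 = e.succ then 1 else 0

/-- the norms -/
noncomputable def gg (y : ℝ) : RI → ℝ
  | Sum.inl p => if p.1 = p.2 then 1 else if p.1 ≤ p.2 then 1 / 2 else 1 / (2 * y ^ 2)
  | Sum.inr _ => 6

theorem inr_eq {B : Fin 7 → Fin 6 → V6} (e : Fin 6) (c : CI) :
    (if c.1 = e.succ then (1 : ℝ) else 0) = √6 * NN B (Sum.inr e) c := by
  change _ = √6 * (if c.1 = e.succ then 1 / √6 else 0)
  split_ifs
  · rw [mul_one_div_cancel (by positivity)]
  · rw [mul_zero]

theorem MM_gram {B : Fin 7 → Fin 6 → V6} (h : MUB7 B) {y : ℝ} (hy : y ≠ 0) :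
    MM B y * (MM B y)ᵀ = diagonal (gg y) := by
  ext x z
  rw [mul_apply, diagonal_apply]
  simp only [transpose_apply]
  rcases x with p | e <;> rcases z with q | e'
  · have h1 : ∀ c, MM B y (Sum.inl p) c * MM B y (Sum.inl q) c = sc y p * sc y q *
        (NN B (Sum.inl p) c * NN B (Sum.inl q) c +
          sg q * (NN B (Sum.inl p) c * NN B (Sum.inl (sw q)) c) +
          sg p * (NN B (Sum.inl (sw p)) c * NN B (Sum.inl q) c) +
          sg p * sg q * (NN B (Sum.inl (sw p)) c * NN B (Sum.inl (sw q)) c)) := by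
      intro c
      change sc y p * (_ + _) * (sc y q * (_ + _)) = _
      ring
    rw [Finset.sum_congr rfl fun c _ => h1 c, ← Finset.mul_sum, Finset.sum_add_distrib,
      Finset.sum_add_distrib, Finset.sum_add_distrib, ← Finset.mul_sum, ← Finset.mul_sum,
      ← Finset.mul_sum, gram h, gram h, gram h, gram h]
    obtain ⟨k, l⟩ := p
    obtain ⟨k', l'⟩ := q
    simp only [Sum.inl.injEq, Prod.mk.injEq, sw, sc, sg, gg]
    by_cases h2 : k = k' ∧ l = l'
    · obtain ⟨rfl, rfl⟩ := h2
      rcases lt_trichotomy k l with h3 | h3 | h3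
      · have : ¬ k = l := h3.ne
        have h4 : ¬ l = k := h3.ne'
        simp [h3.le, this, h4]
        norm_num
      · subst h3
        simp
        norm_num
      · have : ¬ k = l := h3.ne'
        have h4 : ¬ l = k := h3.ne
        simp [not_le.mpr h3, this, h4]
        field_simp
        norm_num
    · by_cases h3 : k = l' ∧ l = k'
      · obtain ⟨rfl, rfl⟩ := h3
        have hkl : ¬ k = l := by
          rintro rfl
          exact h2 ⟨rfl, rfl⟩
        rcases lt_or_gt_of_ne hkl with h4 | h4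
        · have h5 : ¬ l = k := h4.ne'
          simp [h4.le, not_le.mpr h4, hkl, h5]
        · have h5 : ¬ l = k := h4.ne
          simp [h4.le, not_le.mpr h4, hkl, h5]
      · have h4 : ¬ (l = k' ∧ k = l') := fun hh => h3 ⟨hh.2, hh.1⟩
        have h5 : ¬ (l = l' ∧ k = k') := fun hh => h2 ⟨hh.2, hh.1⟩
        rw [if_neg h2, if_neg h3, if_neg h4, if_neg h5, if_neg h2]
        ring
  · have h1 : ∀ c, MM B y (Sum.inl p) c * MM B y (Sum.inr e') c = sc y p * √6 *
        (NN B (Sum.inl p) c * NN B (Sum.inr e') c +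
          sg p * (NN B (Sum.inl (sw p)) c * NN B (Sum.inr e') c)) := by
      intro c
      change sc y p * (_ + _) * (if c.1 = e'.succ then (1 : ℝ) else 0) = _
      rw [inr_eq (B := B)]
      ring
    rw [Finset.sum_congr rfl fun c _ => h1 c, ← Finset.mul_sum, Finset.sum_add_distrib,
      ← Finset.mul_sum, gram h, gram h]
    simp
  · have h1 : ∀ c, MM B y (Sum.inr e) c * MM B y (Sum.inl q) c = sc y q * √6 *
        (NN B (Sum.inr e) c * NN B (Sum.inl q) c +
          sg q * (NN B (Sum.inr e) c * NN B (Sum.inl (sw q)) c)) := by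
      intro c
      change (if c.1 = e.succ then (1 : ℝ) else 0) * (sc y q * (_ + _)) = _
      rw [inr_eq (B := B)]
      ring
    rw [Finset.sum_congr rfl fun c _ => h1 c, ← Finset.mul_sum, Finset.sum_add_distrib,
      ← Finset.mul_sum, gram h, gram h]
    simp
  · have h6 : √6 * √6 = (6 : ℝ) := Real.mul_self_sqrt (by norm_num)
    have h1 : ∀ c, MM B y (Sum.inr e) c * MM B y (Sum.inr e') c = √6 * √6 *
        (NN B (Sum.inr e) c * NN B (Sum.inr e') c) := by
      intro c
      change (if c.1 = e.succ then (1 : ℝ) else 0) * (if c.1 = e'.succ then (1 : ℝ) else 0) = _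
      rw [inr_eq (B := B), inr_eq (B := B)]
      ring
    rw [Finset.sum_congr rfl fun c _ => h1 c, ← Finset.mul_sum, gram h, h6]
    simp [gg]

theorem prod_gg (y : ℝ) : ∏ x, gg y x = (1 / 2) ^ 15 * (1 / (2 * y ^ 2)) ^ 15 * 6 ^ 6 := by
  have h1 : ∀ k l : Fin 6, gg y (Sum.inl (k, l)) = if k = l then 1 else if k ≤ l then 1 / 2
      else 1 / (2 * y ^ 2) := fun _ _ => rfl
  have h2 : ∀ e : Fin 6, gg y (Sum.inr e) = 6 := fun _ => rfl
  rw [Fintype.prod_sum_type, Fintype.prod_prod_type]
  simp only [h1, h2, Finset.prod_const, Finset.card_univ, Fintype.card_fin]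
  congr 1
  simp only [Fin.prod_univ_six]
  simp (decide := true) only [if_true, if_false]
  ring

/-- the imaginary scale is in the field -/
theorem y_mem {F : Subfield ℝ} {B : Fin 7 → Fin 6 → V6} (h : MUB7 B) {y : ℝ} (hy : y ≠ 0)
    (hy2 : y ^ 2 ∈ F) (hM : ∀ x c, MM B y x c ∈ F) : y ∈ F := by
  set e : RI ≃ CI := Fintype.equivOfCardEq card_RI
  set m : Matrix RI RI ℝ := (MM B y).submatrix id e with hm
  have h1 : m * mᵀ = diagonal (gg y) := by
    rw [hm, transpose_submatrix, submatrix_mul_equiv, MM_gram h hy]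
    simp
  have h2 : m.det ^ 2 = (1 / 2) ^ 15 * (1 / (2 * y ^ 2)) ^ 15 * 6 ^ 6 := by
    have := congrArg det h1
    rw [det_mul, det_transpose, det_diagonal, prod_gg] at this
    rw [← this]
    ring
  have hd : m.det ∈ F := by
    rw [det_apply]
    refine F.sum_mem fun σ _ => ?_
    rw [Units.smul_def, zsmul_eq_mul]
    refine F.mul_mem ?_ (F.prod_mem fun i _ => hM _ _)
    exact intCast_mem F _
  have h3 : (m.det * (2 ^ 15 * y ^ 15 / 216)) ^ 2 = 1 := by
    rw [mul_pow, h2]
    field_simp
    norm_num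
  have h4 : m.det * (2 ^ 15 * y ^ 15 / 216) = 1 ∨ m.det * (2 ^ 15 * y ^ 15 / 216) = -1 :=
    mul_self_eq_one_iff.mp (by rw [← sq]; exact h3)
  have hd0 : m.det ≠ 0 := by
    intro h0
    rw [h0, zero_mul] at h3
    norm_num at h3
  have hnat : ∀ n : ℕ, (n : ℝ) ∈ F := fun n => natCast_mem F n
  have h5 : y ^ 15 ∈ F := by
    rcases h4 with h4 | h4
    · have e1 : y ^ 15 = (216 : ℕ) / ((2 : ℕ) ^ 15 * m.det) := by
        rw [eq_div_iff (by positivity)]
        push_cast
        linear_combination 216 * h4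
      rw [e1]
      exact F.div_mem (hnat _) (F.mul_mem (F.pow_mem (hnat _) _) hd)
    · have e1 : y ^ 15 = -((216 : ℕ) / ((2 : ℕ) ^ 15 * m.det)) := by
        rw [← neg_div, eq_div_iff (by positivity)]
        push_cast
        linear_combination 216 * h4
      rw [e1]
      exact F.neg_mem (F.div_mem (hnat _) (F.mul_mem (F.pow_mem (hnat _) _) hd))
  have h6 : y = y ^ 15 / (y ^ 2) ^ 7 := by
    field_simp
  rw [h6]
  exact F.div_mem h5 (F.pow_mem hy2 _)

theorem natF (F : Subfield ℝ) (n : ℕ) : (n : ℝ) ∈ F := natCast_mem F n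

/-- `i` is in the field -/
theorem I_mem {K : Subfield ℂ} (hK : ∀ z ∈ K, (starRingEnd ℂ) z ∈ K) {B : Fin 7 → Fin 6 → V6}
    (h : MUB7 B) (hB : ∀ a i k l, pr (B a i) k l ∈ K) : Complex.I ∈ K := by
  obtain ⟨a, i, k, l, h0⟩ := exists_im h
  set y : ℝ := (pr (B a i) k l).im with hy
  have h6 : (1 / 6 : ℝ) ∈ RF K := by
    have := (RF K).div_mem (natF _ 1) (natF (RF K) 6)
    simpa using this
  have hmem : y ∈ RF K := by
    refine y_mem h h0 (im_sq_mem hK (hB a i k l)) fun x c => ?_
    rcases x with p | e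
    · obtain ⟨k', l'⟩ := p
      change sc y (k', l') * (cc _ _ k' l' + sg (k', l') * cc _ _ l' k') ∈ _
      have hsh : sh c.1 ∈ RF K := by
        unfold sh
        split_ifs
        · exact (RF K).zero_mem
        · exact h6
      have hre := re_mem hK (hB c.1 c.2 k' l')
      have him := im_div_mem hK (hB c.1 c.2 k' l') (hB a i k l) h0
      have hc := pr_conj (B c.1 c.2) k' l'
      have hcr := congrArg Complex.re hc
      have hci := congrArg Complex.im hc
      rw [Complex.conj_re] at hcr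
      rw [Complex.conj_im] at hci
      unfold sc sg cc
      by_cases hkl : k' ≤ l'
      · simp only [hkl, if_true]
        have e1 : (1 / 2 : ℝ) * ((pr (B c.1 c.2) k' l').re + (pr (B c.1 c.2) k' l').im -
            (if k' = l' then sh c.1 else 0) + 1 * ((pr (B c.1 c.2) l' k').re +
              (pr (B c.1 c.2) l' k').im - if l' = k' then sh c.1 else 0)) =
            (pr (B c.1 c.2) k' l').re - (if k' = l' then sh c.1 else 0) := by
          rw [← hcr, ← hci]
          by_cases hh : k' = l'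
          · simp only [hh, if_true]
            ring
          · rw [if_neg hh, if_neg (fun h' => hh h'.symm)]
            ring
        rw [e1]
        refine (RF K).sub_mem hre ?_
        split_ifs
        · exact hsh
        · exact (RF K).zero_mem
      · simp only [hkl, if_false]
        have hne : k' ≠ l' := by
          rintro rfl
          exact hkl le_rfl
        have e1 : 1 / (2 * y) * ((pr (B c.1 c.2) k' l').re + (pr (B c.1 c.2) k' l').im -
            (if k' = l' then sh c.1 else 0) + -1 * ((pr (B c.1 c.2) l' k').re +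
              (pr (B c.1 c.2) l' k').im - if l' = k' then sh c.1 else 0)) =
            (pr (B c.1 c.2) k' l').im / y := by
          rw [← hcr, ← hci, if_neg hne, if_neg hne.symm]
          field_simp
          ring
        rw [e1]
        exact him
    · change (if c.1 = e.succ then (1 : ℝ) else 0) ∈ _
      split_ifs
      · exact (RF K).one_mem
      · exact (RF K).zero_mem
  have h2 := im_mem' hK (hB a i k l)
  have h3 : Complex.I = Complex.I * ((pr (B a i) k l).im : ℂ) / (y : ℂ) := by
    have : (y : ℂ) ≠ 0 := Complex.ofReal_ne_zero.mpr h0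
    field_simp
    rfl
  rw [h3]
  exact K.div_mem h2 hmem

/-- the orthogonal matrix over the field -/
theorem good42 {K : Subfield ℂ} (hK : ∀ z ∈ K, (starRingEnd ℂ) z ∈ K) {B : Fin 7 → Fin 6 → V6}
    (h : MUB7 B) (hB : ∀ a i k l, pr (B a i) k l ∈ K) :
    Good (RF K) RI (Sum.elim (fun _ => 1) (fun _ => 6)) := by
  have hI := I_mem hK h hB
  have h6 : (1 / 6 : ℝ) ∈ RF K := by
    have := (RF K).div_mem (natF _ 1) (natF (RF K) 6)
    simpa using this
  have him : ∀ z ∈ K, z.im ∈ RF K := by
    intro z hz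
    rw [mem_RF]
    have h1 := im_mem' hK hz
    have h2 : ((z.im : ℝ) : ℂ) = Complex.I * (z.im : ℂ) / Complex.I := by
      rw [mul_div_cancel_left₀ _ Complex.I_ne_zero]
    rw [h2]
    exact K.div_mem h1 hI
  set N2 : Matrix RI CI ℝ := fun x c => match x with
    | Sum.inl p => NN B (Sum.inl p) c
    | Sum.inr e => if c.1 = e.succ then 1 else 0 with hN2
  have hF : ∀ x c, N2 x c ∈ RF K := by
    rintro (p | e) c
    · change cc _ _ _ _ ∈ _
      unfold cc
      refine (RF K).sub_mem ((RF K).add_mem (re_mem hK (hB _ _ _ _)) (him _ (hB _ _ _ _))) ?_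
      unfold sh
      split_ifs
      · exact (RF K).zero_mem
      · exact h6
      · exact (RF K).zero_mem
    · change (if c.1 = e.succ then (1 : ℝ) else 0) ∈ _
      split_ifs
      · exact (RF K).one_mem
      · exact (RF K).zero_mem
  set e : RI ≃ CI := Fintype.equivOfCardEq card_RI
  refine ⟨N2.submatrix id e, fun i j => hF _ _, ?_⟩
  rw [transpose_submatrix, submatrix_mul_equiv]
  have hG : N2 * N2ᵀ = diagonal (Sum.elim (fun _ => 1) (fun _ => 6)) := by
    ext x z
    rw [mul_apply, diagonal_apply]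
    simp only [transpose_apply]
    rcases x with p | e <;> rcases z with q | e'
    · change ∑ c, NN B (Sum.inl p) c * NN B (Sum.inl q) c = _
      rw [gram h]
      simp
    · have h1 : ∀ c, N2 (Sum.inl p) c * N2 (Sum.inr e') c =
          √6 * (NN B (Sum.inl p) c * NN B (Sum.inr e') c) := by
        intro c
        change NN B (Sum.inl p) c * (if c.1 = e'.succ then (1 : ℝ) else 0) = _
        rw [inr_eq (B := B)]
        ring
      rw [Finset.sum_congr rfl fun c _ => h1 c, ← Finset.mul_sum, gram h]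
      simp
    · have h1 : ∀ c, N2 (Sum.inr e) c * N2 (Sum.inl q) c =
          √6 * (NN B (Sum.inr e) c * NN B (Sum.inl q) c) := by
        intro c
        change (if c.1 = e.succ then (1 : ℝ) else 0) * NN B (Sum.inl q) c = _
        rw [inr_eq (B := B)]
        ring
      rw [Finset.sum_congr rfl fun c _ => h1 c, ← Finset.mul_sum, gram h]
      simp
    · have h6' : √6 * √6 = (6 : ℝ) := Real.mul_self_sqrt (by norm_num)
      have h1 : ∀ c, N2 (Sum.inr e) c * N2 (Sum.inr e') c = √6 * √6 *
          (NN B (Sum.inr e) c * NN B (Sum.inr e') c) := by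
        intro c
        change (if c.1 = e.succ then (1 : ℝ) else 0) * (if c.1 = e'.succ then (1 : ℝ) else 0) = _
        rw [inr_eq (B := B), inr_eq (B := B)]
        ring
      rw [Finset.sum_congr rfl fun c _ => h1 c, ← Finset.mul_sum, gram h, h6']
      simp
  rw [hG]
  simp

theorem good6 {K : Subfield ℂ} (hK : ∀ z ∈ K, (starRingEnd ℂ) z ∈ K) {B : Fin 7 → Fin 6 → V6}
    (h : MUB7 B) (hB : ∀ a i k l, pr (B a i) k l ∈ K) :
    Good (RF K) (Fin 6) (fun _ => 6) := by
  have h1 := (good42 hK h hB).congr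
    (Equiv.sumCongr (finProdFinEquiv (m := 6) (n := 6)).symm (Equiv.refl (Fin 6)))
  exact Good.cancel (6 * 6) (g := (Sum.elim (fun _ => 1) (fun _ => 6)) ∘
    (Equiv.sumCongr (finProdFinEquiv (m := 6) (n := 6)).symm (Equiv.refl (Fin 6))))
    (fun i => rfl) h1

end P355
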