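import Vale.Agent.Lib.P355.Field

/-!
# P355: six is a sum of two squares in the real part of the field
-/

namespace P355

open Matrix

/-- a rational matrix with `A Aᵀ = 6` (six is a sum of four squares) -/
def A4 : Matrix (Fin 4) (Fin 4) ℤ :=
  !![2, 1, 1, 0; -1, 2, 0, 1; -1, 0, 2, -1; 0, -1, 1, 2]

theorem A4_mul : A4 * A4ᵀ = (6 : ℤ) • (1 : Matrix (Fin 4) (Fin 4) ℤ) := by decide

/-- cancellation of four copies of six -/
theorem good2 {F : Subfield ℝ} (h : Good F (Fin 6) (fun _ => 6)) :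
    Good F (Fin 2) (fun _ => 6) := by
  obtain ⟨r, hr, hrr⟩ := h.congr (finSumFinEquiv (m := 4) (n := 2))
  have hrr' : r * rᵀ = (6 : ℝ) • (1 : Matrix (Fin 4 ⊕ Fin 2) (Fin 4 ⊕ Fin 2) ℝ) := by
    rw [hrr]
    ext i j
    simp [diagonal_apply, Matrix.one_apply]
  set A : Matrix (Fin 4) (Fin 4) ℝ := A4.map (fun n : ℤ => (n : ℝ)) with hA
  have hAA : A * Aᵀ = (6 : ℝ) • (1 : Matrix (Fin 4) (Fin 4) ℝ) := by
    have h1 := congrArg (fun M : Matrix (Fin 4) (Fin 4) ℤ => M.map (Int.castRingHom ℝ)) A4_mul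
    simp only [Matrix.map_mul] at h1
    have h2 : A4ᵀ.map (Int.castRingHom ℝ) = Aᵀ := rfl
    have h3 : A4.map (Int.castRingHom ℝ) = A := rfl
    rw [h2, h3] at h1
    rw [h1]
    ext i j
    rw [Matrix.map_apply, Matrix.smul_apply, Matrix.smul_apply, Matrix.one_apply,
      Matrix.one_apply]
    split_ifs <;> simp
  set L : Matrix (Fin 4 ⊕ Fin 2) (Fin 4 ⊕ Fin 2) ℝ := fromBlocks ((1 / 6 : ℝ) • A) 0 0 1 with hL
  have hLL : L * Lᵀ = fromBlocks ((1 / 6 : ℝ) • 1) 0 0 1 := by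
    rw [hL, fromBlocks_transpose, fromBlocks_multiply]
    simp only [transpose_smul, transpose_zero, transpose_one, Matrix.mul_zero, Matrix.zero_mul,
      add_zero, zero_add, Matrix.mul_one]
    rw [smul_mul_smul_comm, hAA, smul_smul]
    norm_num
  have hLF : ∀ i j, L i j ∈ F := by
    have hint : ∀ n : ℤ, (n : ℝ) ∈ F := fun n => intCast_mem F n
    rintro (i | i) (j | j)
    · change (1 / 6 : ℝ) * ((A4 i j : ℤ) : ℝ) ∈ F
      refine F.mul_mem ?_ (hint _)
      have := F.div_mem (natF F 1) (natF F 6)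
      simpa using this
    · exact F.zero_mem
    · exact F.zero_mem
    · change (1 : Matrix (Fin 2) (Fin 2) ℝ) i j ∈ F
      rw [Matrix.one_apply]
      split_ifs
      · exact F.one_mem
      · exact F.zero_mem
  have h4 : Good F (Fin 4 ⊕ Fin 2) (Sum.elim (fun _ => 1) (fun _ => 6)) := by
    refine ⟨L * r, fun i j => ?_, ?_⟩
    · rw [mul_apply]
      exact F.sum_mem fun k _ => F.mul_mem (hLF i k) (hr k j)
    · rw [transpose_mul, Matrix.mul_assoc, ← Matrix.mul_assoc r, hrr', Matrix.smul_mul,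
        Matrix.one_mul, Matrix.mul_smul, hLL]
      ext (i | i) (j | j)
      · simp [Matrix.one_apply, diagonal_apply]
      · simp
      · simp
      · simp [Matrix.one_apply, diagonal_apply]
  exact h4.cancel 4 (fun _ => rfl)

theorem two_squares {F : Subfield ℝ} (h : Good F (Fin 2) (fun _ => 6)) :
    ∃ x ∈ F, ∃ y ∈ F, x ^ 2 + y ^ 2 = 6 := by
  obtain ⟨r, hr, hrr⟩ := h
  refine ⟨r 0 0, hr 0 0, r 0 1, hr 0 1, ?_⟩
  have := congrFun (congrFun hrr 0) 0
  rw [mul_apply, Fin.sum_univ_two, diagonal_apply, if_pos rfl, transpose_apply,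
    transpose_apply] at this
  rw [← this]
  ring

/-- the entries of the projector are in `K` if the vector is proportional to a vector over `K` -/
theorem pr_mem {K : Subfield ℂ} (hK : ∀ z ∈ K, (starRingEnd ℂ) z ∈ K) {v : V6} (hv : ‖v‖ = 1)
    {c : ℂ} (hc : c ≠ 0) (h : ∀ k, c * v k ∈ K) (k l : Fin 6) : pr v k l ∈ K := by
  have h1 : c * (starRingEnd ℂ) c = ∑ m, c * v m * (starRingEnd ℂ) (c * v m) := by
    have h2 : ∑ m, v m * (starRingEnd ℂ) (v m) = 1 := by
      have := inner_self_eq_norm_sq_to_K (𝕜 := ℂ) v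
      rw [inner_eq, hv] at this
      simp only [mul_comm (v _)]
      simpa using this
    have h3 : ∀ m, c * v m * (starRingEnd ℂ) (c * v m) =
        c * (starRingEnd ℂ) c * (v m * (starRingEnd ℂ) (v m)) := by
      intro m
      rw [map_mul]
      ring
    rw [Finset.sum_congr rfl fun m _ => h3 m, ← Finset.mul_sum, h2, mul_one]
  have h4 : c * (starRingEnd ℂ) c ∈ K := by
    rw [h1]
    exact K.sum_mem fun m _ => K.mul_mem (h m) (hK _ (h m))
  have h5 : c * (starRingEnd ℂ) c ≠ 0 := mul_ne_zero hc ((map_ne_zero _).mpr hc)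
  have h6 : pr v k l = c * v k * (starRingEnd ℂ) (c * v l) / (c * (starRingEnd ℂ) c) := by
    unfold pr
    rw [map_mul, eq_div_iff h5]
    ring
  rw [h6]
  exact K.div_mem (K.mul_mem (h k) (hK _ (h l))) h4

/-- Bruck-Ryser type theorem for seven mutually unbiased bases in dimension six -/
theorem bruck_ryser {K : Subfield ℂ} (hK : ∀ z ∈ K, (starRingEnd ℂ) z ∈ K)
    (B : Fin 7 → OrthonormalBasis (Fin 6) ℂ V6)
    (hunb : ∀ a b, a ≠ b → ∀ i j, ‖inner ℂ (B a i) (B b j)‖ ^ 2 = 1 / 6)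
    (hB : ∀ a i, ∃ c : ℂ, c ≠ 0 ∧ ∀ k, c * B a i k ∈ K) :
    Complex.I ∈ K ∧ ∃ x y : ℝ, (x : ℂ) ∈ K ∧ (y : ℂ) ∈ K ∧ x ^ 2 + y ^ 2 = 6 := by
  have h : MUB7 fun a i => B a i :=
    ⟨fun a i => (B a).orthonormal.1 i, fun a i j hij => (B a).orthonormal.2 hij, hunb⟩
  have hB' : ∀ a i k l, pr (B a i) k l ∈ K := by
    intro a i k l
    obtain ⟨c, hc, hc2⟩ := hB a i
    exact pr_mem hK ((B a).orthonormal.1 i) hc hc2 k l
  refine ⟨I_mem hK h hB', ?_⟩
  obtain ⟨x, hx, y, hy, hxy⟩ := two_squares (good2 (good6 hK h hB'))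
  exact ⟨x, y, hx, hy, hxy⟩

end P355
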