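import Mathlib

/-!
# P355: Witt cancellation for diagonal forms over a subfield of the reals, by reflections
-/

namespace P355

open Matrix

/-- the diagonal form `g` is represented by a square matrix over `F` whose rows are orthogonal -/
def Good (F : Subfield ℝ) (ι : Type) [Fintype ι] [DecidableEq ι] (g : ι → ℝ) : Prop :=
  ∃ r : Matrix ι ι ℝ, (∀ i j, r i j ∈ F) ∧ r * rᵀ = diagonal g

variable {F : Subfield ℝ}

theorem Good.congr {ι κ : Type} [Fintype ι] [DecidableEq ι] [Fintype κ] [DecidableEq κ]
    (e : κ ≃ ι) {g : ι → ℝ} (h : Good F ι g) : Good F κ (g ∘ e) := by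
  obtain ⟨r, h1, h2⟩ := h
  refine ⟨r.submatrix e e, fun i j => h1 _ _, ?_⟩
  rw [transpose_submatrix, submatrix_mul_equiv, h2]
  ext i j
  simp [diagonal_apply, e.injective.eq_iff]

/-- a reflection (or the identity) maps a unit vector to the first basis vector -/
theorem exists_refl {ι : Type} [Fintype ι] [DecidableEq ι] (o : ι) (v : ι → ℝ)
    (hv : ∀ i, v i ∈ F) (h1 : v ⬝ᵥ v = 1) :
    ∃ H : Matrix ι ι ℝ, (∀ i j, H i j ∈ F) ∧ H * Hᵀ = 1 ∧ v ᵥ* H = Pi.single o 1 := by
  by_cases hve : v = Pi.single o 1
  · refine ⟨1, fun i j => ?_, by simp, by rw [vecMul_one]; exact hve⟩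
    rw [one_apply]
    split_ifs
    · exact F.one_mem
    · exact F.zero_mem
  · set w : ι → ℝ := v - Pi.single o 1 with hw
    have hwF : ∀ i, w i ∈ F := by
      intro i
      rw [hw, Pi.sub_apply]
      refine F.sub_mem (hv i) ?_
      rw [Pi.single_apply]
      split_ifs
      · exact F.one_mem
      · exact F.zero_mem
    have hvo : v ⬝ᵥ Pi.single o 1 = v o := by simp
    have hov : (Pi.single o 1 : ι → ℝ) ⬝ᵥ v = v o := by simp
    have hoo : (Pi.single o 1 : ι → ℝ) ⬝ᵥ Pi.single o 1 = 1 := by simp
    have hww : w ⬝ᵥ w = 2 * (1 - v o) := by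
      rw [hw, sub_dotProduct, dotProduct_sub, dotProduct_sub, h1, hvo, hov, hoo]
      ring
    have hvw : v ⬝ᵥ w = 1 - v o := by
      rw [hw, dotProduct_sub, h1, hvo]
    have hne : 1 - v o ≠ 0 := by
      intro h0
      have : w ⬝ᵥ w = 0 := by rw [hww, h0, mul_zero]
      have hw0 := dotProduct_self_eq_zero.mp this
      apply hve
      rw [hw] at hw0
      exact sub_eq_zero.mp hw0
    set c : ℝ := 1 / (1 - v o) with hc
    have hcF : c ∈ F := by
      rw [hc, one_div]
      exact F.inv_mem (F.sub_mem F.one_mem (hv o))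
    refine ⟨1 - c • vecMulVec w w, fun i j => ?_, ?_, ?_⟩
    · rw [Matrix.sub_apply, Matrix.smul_apply, vecMulVec_apply, smul_eq_mul, one_apply]
      refine F.sub_mem ?_ (F.mul_mem hcF (F.mul_mem (hwF i) (hwF j)))
      split_ifs
      · exact F.one_mem
      · exact F.zero_mem
    · have ht : (1 - c • vecMulVec w w)ᵀ = 1 - c • vecMulVec w w := by
        rw [transpose_sub, transpose_one, transpose_smul, transpose_vecMulVec]
      have hsq : vecMulVec w w * vecMulVec w w = (w ⬝ᵥ w) • vecMulVec w w := by
        rw [vecMulVec_mul_vecMulVec, vecMulVec_smul]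
      rw [ht, sub_mul, one_mul, mul_sub, mul_one, smul_mul_assoc, mul_smul_comm, hsq, hww]
      ext i j
      simp only [Matrix.sub_apply, Matrix.smul_apply, smul_eq_mul]
      rw [hc]
      field_simp
      ring
    · ext j
      rw [vecMul_sub, vecMul_one, vecMul_smul, Pi.sub_apply, Pi.smul_apply, smul_eq_mul]
      have : (v ᵥ* vecMulVec w w) j = (v ⬝ᵥ w) * w j := by
        rw [vecMul_vecMulVec]
        rfl
      rw [this, hvw, hc]
      have e : 1 / (1 - v o) * ((1 - v o) * w j) = w j := by field_simp
      rw [e, hw, Pi.sub_apply]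
      ring

/-- cancellation of one unit -/
theorem Good.step {ι : Type} [Fintype ι] [DecidableEq ι] {g : Option ι → ℝ} (h0 : g none = 1)
    (h : Good F (Option ι) g) : Good F ι (fun i => g (some i)) := by
  obtain ⟨r, hr, hrr⟩ := h
  have hG : ∀ a b, r a ⬝ᵥ r b = if a = b then g a else 0 := by
    intro a b
    have := congrFun (congrFun hrr a) b
    rw [mul_apply, diagonal_apply] at this
    rw [← this]
    rfl
  obtain ⟨H, hHF, hHH, hvH⟩ := exists_refl (F := F) none (r none) (fun j => hr none j)
    (by rw [hG, if_pos rfl, h0])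
  set r' := r * H with hr'
  have hr'F : ∀ a b, r' a b ∈ F := by
    intro a b
    rw [hr', mul_apply]
    exact F.sum_mem fun j _ => F.mul_mem (hr a j) (hHF j b)
  have hr'r : r' * r'ᵀ = diagonal g := by
    rw [hr', transpose_mul, Matrix.mul_assoc, ← Matrix.mul_assoc H, hHH, Matrix.one_mul, hrr]
  have hG' : ∀ a b, ∑ j, r' a j * r' b j = if a = b then g a else 0 := by
    intro a b
    have := congrFun (congrFun hr'r a) b
    rw [mul_apply, diagonal_apply] at this
    rw [← this]
    rfl
  have hnone : ∀ j, r' none j = (Pi.single none 1 : Option ι → ℝ) j := by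
    intro j
    rw [← hvH]
    rfl
  have hz : ∀ i : ι, r' (some i) none = 0 := by
    intro i
    have h1 := hG' (some i) none
    rw [if_neg (by simp)] at h1
    simp only [hnone] at h1
    simpa [Pi.single_apply] using h1
  refine ⟨r'.submatrix some some, fun i j => hr'F _ _, ?_⟩
  ext i j
  rw [mul_apply, diagonal_apply]
  have h1 := hG' (some i) (some j)
  rw [Fintype.sum_option, hz i, zero_mul, zero_add] at h1
  simp only [transpose_apply, submatrix_apply]
  rw [h1]
  simp

/-- the index equivalence -/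
def optEquiv (n : ℕ) (κ : Type) : Option (Fin n ⊕ κ) ≃ Fin (n + 1) ⊕ κ where
  toFun x := match x with
    | none => Sum.inl 0
    | some (Sum.inl i) => Sum.inl i.succ
    | some (Sum.inr j) => Sum.inr j
  invFun y := match y with
    | Sum.inl i => Fin.cases none (fun i => some (Sum.inl i)) i
    | Sum.inr j => some (Sum.inr j)
  left_inv x := by
    rcases x with _ | (i | j) <;> rfl
  right_inv y := by
    rcases y with i | j
    · refine Fin.cases ?_ (fun i => ?_) i <;> rfl
    · rfl

/-- cancellation of `n` units -/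
theorem Good.cancel (n : ℕ) {κ : Type} [Fintype κ] [DecidableEq κ] {g : Fin n ⊕ κ → ℝ}
    (h0 : ∀ i, g (Sum.inl i) = 1) (h : Good F (Fin n ⊕ κ) g) :
    Good F κ (fun j => g (Sum.inr j)) := by
  induction n with
  | zero =>
    have h1 := h.congr (Equiv.emptySum (Fin 0) κ).symm
    exact h1
  | succ n ih =>
    have h1 := (h.congr (optEquiv n κ)).step (h0 0)
    exact ih (g := fun x => g (optEquiv n κ (some x))) (fun i => h0 i.succ) h1

end P355
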